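import Vale.Agent.P233G30.Rows

/-! P233G: tensors given by a field, and their contractions. -/

set_option linter.all false

open MeasureTheory Filter Topology Set
open scoped ENNReal NNReal InnerProductSpace TensorProduct

universe u

namespace Vale.Agent.P233G74

open Vale.Agent.P233 Vale.Agent.P233G

variable {M : Type u} [MetricSpace M] [MeasurableSpace M]
  {U : Measure M → (M → ℝ) → (M → ℝ) → Prop} {m : Measure M}
  {H : Type u} [NormedAddCommGroup H] [InnerProductSpace ℝ H]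

/-- The pointwise orthogonal projection of a field onto the module. -/
theorem contr {T : Tan U m H} {Gr : L0 m → M → E1} {J : H →L[ℝ] Lp E1 2 m} (hJ : Rz T Gr J)
    {w : M → E1} (hw : MemLp w 2 m) : ∃ V : H, ∀ Z, ∀ᵐ x ∂m, T.ip V Z x = ⟪w x, J Z x⟫_ℝ := by
  have := T.complete
  refine ⟨ContinuousLinearMap.adjoint J (hw.toLp w), fun Z => ?_⟩
  set V := ContinuousLinearMap.adjoint J (hw.toLp w) with hV
  have hw' := hw.coeFn_toLp
  have hi : Integrable (fun x => ⟪w x, J Z x⟫_ℝ) m :=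
    (L2.integrable_inner (𝕜 := ℝ) (hw.toLp w) (J Z)).congr (by
      filter_upwards [hw'] with x hx
      rw [hx])
  refine Integrable.ae_eq_of_forall_setIntegral_eq _ _ (T.int V Z).1 hi fun s hs _ => ?_
  have hm : AEStronglyMeasurable (s.indicator fun _ : M => (1 : ℝ)) m :=
    aestronglyMeasurable_const.indicator hs
  set a : L0 m := AEEqFun.mk _ hm with ha
  have h1 : ⇑a =ᵐ[m] s.indicator fun _ : M => (1 : ℝ) := AEEqFun.coeFn_mk _ hm
  have h2 : MemLp a ∞ m := (memLp_congr_ae h1).2 ((memLp_top_const (1 : ℝ)).indicator hs)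
  have h3 : ⟪V, T.sm a Z⟫_ℝ = ∫ x in s, T.ip V Z x ∂m := by
    rw [(T.int _ _).2, T.symm, T.ip_sm a h2, T.symm Z, ← integral_indicator hs]
    refine integral_congr_ae ?_
    filter_upwards [AEEqFun.coeFn_mul a (T.ip V Z), h1] with x e1 e2
    rw [e1, Pi.mul_apply, e2]
    by_cases hx : x ∈ s <;> simp [hx]
  rw [← h3, hV, ContinuousLinearMap.adjoint_inner_left, L2.inner_def, ← integral_indicator hs]
  refine integral_congr_ae ?_
  filter_upwards [hJ.sm a h2 Z, h1, hw'] with x e1 e2 e3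
  rw [e1, e2, e3]
  by_cases hx : x ∈ s <;> simp [hx]

theorem memLp_adj {E F : Type} [NormedAddCommGroup E] [InnerProductSpace ℝ E] [CompleteSpace E]
    [NormedAddCommGroup F] [InnerProductSpace ℝ F] [CompleteSpace F]
    {β : M → F} (hβ : MemLp β 2 m) {u : M → E} (hu : AEStronglyMeasurable u m)
    {C : ℝ} (hC : ∀ᵐ x ∂m, ‖u x‖ ≤ C) (B : E →L[ℝ] E →L[ℝ] F)
    (hB : ∀ a b, ‖B a b‖ ≤ ‖a‖ * ‖b‖) :
    ∃ w : M → E, MemLp w 2 m ∧ ∀ x z, ⟪w x, z⟫_ℝ = ⟪β x, B (u x) z⟫_ℝ := by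
  have hc : Continuous fun p : E × F => ContinuousLinearMap.adjoint (B p.1) p.2 :=
    (((ContinuousLinearMap.adjoint (𝕜 := ℝ) (E := E) (F := F)).continuous.comp
      B.continuous).comp continuous_fst).clm_apply continuous_snd
  obtain ⟨g, h1, h2, h3⟩ : ∃ g : E × F → E, Continuous g ∧
      (∀ p z, ⟪g p, z⟫_ℝ = ⟪p.2, B p.1 z⟫_ℝ) ∧ ∀ p, ‖g p‖ ≤ ‖p.1‖ * ‖p.2‖ := by
    refine ⟨_, hc, fun p z => ContinuousLinearMap.adjoint_inner_left _ _ _, fun p => ?_⟩
    refine (ContinuousLinearMap.le_opNorm _ _).trans (mul_le_mul_of_nonneg_right ?_ (norm_nonneg _))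
    rw [LinearIsometryEquiv.norm_map]
    exact ContinuousLinearMap.opNorm_le_bound _ (norm_nonneg _) (hB _)
  refine ⟨fun x => g (u x, β x), ?_, fun x z => h2 _ z⟩
  refine MemLp.of_le_mul (c := C) hβ (h1.comp_aestronglyMeasurable (hu.prodMk hβ.1)) ?_
  filter_upwards [hC] with x hx
  exact (h3 _).trans (mul_le_mul_of_nonneg_right hx (norm_nonneg _))

theorem sq_le (b : E2) {k : ℕ} (s : Fin k → ℝ) (u v : Fin k → E1) :
    (∑ i, s i * ⟪b, tm (u i) (v i)⟫_ℝ) ^ 2 ≤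
      ‖b‖ ^ 2 * ∑ i, ∑ j, s i * s j * (⟪u i, u j⟫_ℝ * ⟪v i, v j⟫_ℝ) := by
  have h1 : ∑ i, s i * ⟪b, tm (u i) (v i)⟫_ℝ = ⟪b, ∑ i, s i • tm (u i) (v i)⟫_ℝ := by
    simp only [inner_sum, real_inner_smul_right]
  have h2 : ∑ i, ∑ j, s i * s j * (⟪u i, u j⟫_ℝ * ⟪v i, v j⟫_ℝ) =
      ‖∑ i, s i • tm (u i) (v i)‖ ^ 2 := by
    rw [← real_inner_self_eq_norm_sq]
    simp only [sum_inner, inner_sum, real_inner_smul_right, real_inner_smul_left, inner_tm]
    rw [Finset.sum_comm]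
    exact Finset.sum_congr rfl fun i _ => Finset.sum_congr rfl fun j _ => by ring
  rw [h1, h2, ← mul_pow, ← sq_abs]
  exact pow_le_pow_left₀ (abs_nonneg _) (abs_real_inner_le_norm _ _) 2

theorem tn : TN.{u} := by
  intro M _ _ _ _ U m κ Gr _ H _ _ T J hJ β hβ
  have hm : ∀ X Y : H, AEStronglyMeasurable (fun x => ⟪β x, tm (J X x) (J Y x)⟫_ℝ) m :=
    fun X Y => hβ.1.inner (tm.aestronglyMeasurable_comp₂ (Lp.aestronglyMeasurable _)
      (Lp.aestronglyMeasurable _))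
  have hA : ∀ X Y : H, ∀ᵐ x ∂m, (AEEqFun.mk _ (hm X Y) : L0 m) x =
      ⟪β x, tm (J X x) (J Y x)⟫_ℝ := fun X Y => AEEqFun.coeFn_mk _ (hm X Y)
  refine ⟨fun X Y => AEEqFun.mk _ (hm X Y), ⟨fun x => ‖β x‖, hβ.norm, fun k X Y => ?_⟩, hA,
    fun X hX => ?_⟩
  · filter_upwards [ae_all_iff.2 fun i => hA (X i) (Y i),
      ae_all_iff.2 fun i => ae_all_iff.2 fun j => hJ.ip (X i) (X j),
      ae_all_iff.2 fun i => ae_all_iff.2 fun j => hJ.ip (Y i) (Y j)] with x e1 e2 e3 s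
    simp only [e1, e2, e3]
    exact sq_le _ s _ _
  · obtain ⟨C, hC⟩ : ∃ C : ℝ, ∀ᵐ x ∂m, ‖J X x‖ ≤ C := by
      refine ⟨√(eLpNorm (T.ip X X) ∞ m).toReal, ?_⟩
      have h1 := ae_le_eLpNormEssSup (f := T.ip X X) (μ := m)
      filter_upwards [h1, hJ.ip X X] with x e1 e2
      refine Real.le_sqrt_of_sq_le ?_
      rw [← real_inner_self_eq_norm_sq, ← e2]
      refine (le_abs_self _).trans ?_
      rw [← Real.norm_eq_abs, ← toReal_enorm]
      exact ENNReal.toReal_mono hX.2.ne (by rwa [eLpNorm_exponent_top])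
    constructor
    · obtain ⟨w, hw, hw'⟩ := memLp_adj hβ (Lp.aestronglyMeasurable (J X)) hC tm
        fun a b => (norm_tm a b).le
      obtain ⟨V, hV⟩ := contr hJ hw
      refine ⟨V, fun Z => AEEqFun.ext ?_⟩
      filter_upwards [hV Z, hA X Z] with x e1 e2
      rw [e1, e2, hw']
    · obtain ⟨w, hw, hw'⟩ := memLp_adj hβ (Lp.aestronglyMeasurable (J X)) hC tm.flip
        fun a b => by rw [ContinuousLinearMap.flip_apply, norm_tm, mul_comm]
      obtain ⟨V, hV⟩ := contr hJ hw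
      refine ⟨V, fun Z => AEEqFun.ext ?_⟩
      filter_upwards [hV Z, hA Z X] with x e1 e2
      rw [e1, e2, hw', ContinuousLinearMap.flip_apply]

end Vale.Agent.P233G74
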